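import Vale.Agent.P235.Apex

namespace Vale.Agent.Results.P235.Apices

open Vale.Agent.P235

/-- Adding `k` apices costs only additively in the `L₁` distortion; consequently graphs with
bounded feedback vertex number have bounded `L₁` distortion. -/
theorem result :
    (∀ (V : Type) [Fintype V] (G : SimpleGraph V) (S : Finset V) (C : ℝ),
      G.Connected → 1 ≤ C → C1Le (G.induce {z : V | z ∉ S}) C →
        C1Le G (576 * (S.card + C))) ∧
    (∀ (V : Type) [Fintype V] (G : SimpleGraph V) (S : Finset V),
      G.Connected → (G.induce {z : V | z ∉ S}).IsAcyclic →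
        C1Le G (576 * (S.card + 1))) := by
  have h1 : ∀ (V : Type) [Fintype V] (G : SimpleGraph V) (S : Finset V) (C : ℝ),
      G.Connected → 1 ≤ C → C1Le (G.induce {z : V | z ∉ S}) C →
        C1Le G (576 * (S.card + C)) := by
    intro V _ G S C hG hC hH
    refine c1Le_mono ?_ (c1Le_apex' hG S hC hH)
    have : (0:ℝ) ≤ S.card := Nat.cast_nonneg _
    linarith
  refine ⟨h1, fun V _ G S hG hH => ?_⟩
  classical
  exact h1 V G S 1 hG le_rfl (c1Le_forest hH)

end Vale.Agent.Results.P235.Apices
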