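import Vale.Agent.P235.Ladder

/-!
The GNRS conjecture for minor-closed families that omit a ladder.
-/

namespace Vale.Agent.Results.P235.LadderFree

open Vale.Agent.P235 SimpleGraph

/-- Graphs without a `2 × n` grid minor have `L₁` distortion bounded in terms of `n`. -/
theorem result :
    ∀ n : ℕ, ∃ C : ℝ, ∀ (V : Type) [Fintype V] (G : SimpleGraph V),
      ¬ HasMinor G ((pathGraph 2).boxProd (pathGraph n)) → C1Le G C :=
  fun n => ⟨ladderBound n (n - 1), fun _ _ _ hG => c1Le_ladderFree hG⟩

end Vale.Agent.Results.P235.LadderFree
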